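import Vale.Agent.Lib.P358.OneStepGAD
import Vale.Agent.Lib.P358.Main

/-!
# P358: the classical capacity of the generalized amplitude-damping channel

For all `γ, ν ∈ [0,1]` the Holevo capacity of `A_{γ,ν}` is additive and
`C(A_{γ,ν}) = χ(A_{γ,ν}) = max_q [h((1-γ)q + γν) - h((1 - √(1 - 4 D(q)))/2)]`,
`D(q) = γ(1-γ)(q-ν)² + γν(1-ν)`.
-/

namespace Vale.Agent.Results.P358.Additivity

open Vale.Agent.P358

/-- Full answer to the question, for every pair `(γ, ν) ∈ [0,1]²`. -/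
theorem result (γ ν : ℝ) (hγ : γ ∈ Set.Icc (0 : ℝ) 1) (hν : ν ∈ Set.Icc (0 : ℝ) 1) :
    capacity (gad γ ν) = holevo (gad γ ν) ∧
    (∀ n : ℕ, holevo (tensorPow (gad γ ν) n) = n * holevo (gad γ ν)) ∧
    (∀ n : ℕ, IsGreatest (holevoSet (tensorPow (gad γ ν) n)) (holevo (tensorPow (gad γ ν) n))) ∧
    IsGreatest (holevoSet (gad γ ν)) (holevo (gad γ ν)) ∧
    IsLUB (Set.range fun n : ℕ => holevo (tensorPow (gad γ ν) (n + 1)) / ((n : ℝ) + 1))
      (capacity (gad γ ν)) ∧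
    IsGreatest ((fun q : ℝ => (Real.binEntropy ((1 - γ) * q + γ * ν) -
      Real.binEntropy ((1 - Real.sqrt (1 - 4 * (γ * (1 - γ) * (q - ν) ^ 2 + γ * ν * (1 - ν)))) / 2))
        / Real.log 2) '' Set.Icc (0 : ℝ) 1) (capacity (gad γ ν)) := by
  obtain ⟨q₀, hq₀, hmax, hn, h1⟩ := isGreatest_of_oneStep hγ hν (oneStep_gad hγ hν)
  obtain ⟨hC, hadd⟩ := capacity_of_oneStep hγ hν (oneStep_gad hγ hν)
  have hh : holevo (gad γ ν) = gq γ ν q₀ / Real.log 2 := h1.csSup_eq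
  have hhn : ∀ n : ℕ, holevo (tensorPow (gad γ ν) n) = n * gq γ ν q₀ / Real.log 2 :=
    fun n => (hn n).csSup_eq
  refine ⟨hC, hadd, fun n => ?_, ?_, ?_, ?_⟩
  · rw [hhn n]
    exact hn n
  · rw [hh]
    exact h1
  · have hconst : (fun n : ℕ => holevo (tensorPow (gad γ ν) (n + 1)) / ((n : ℝ) + 1)) =
        fun _ => holevo (gad γ ν) := by
      funext n
      have hpos : ((n : ℝ) + 1) ≠ 0 := by positivity
      rw [hadd (n + 1)]
      push_cast
      field_simp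
    rw [hconst, hC, Set.range_const]
    exact isLUB_singleton
  · rw [hC, hh]
    refine ⟨⟨q₀, hq₀, rfl⟩, ?_⟩
    rintro _ ⟨q, hq, rfl⟩
    have := hmax hq
    simp only [Set.mem_setOf_eq] at this
    have hl : 0 < Real.log 2 := Real.log_pos (by norm_num)
    exact div_le_div_of_nonneg_right this hl.le

end Vale.Agent.Results.P358.Additivity
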