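import Vale.Agent.Results.P358.EveryTensorPower

/-!
# P358: the classical capacity of the generalized amplitude-damping channel, third form

The channel is used on `n` qubits by applying it to one qubit after the other; the von Neumann
entropy is the Shannon entropy of the roots of the characteristic polynomial.
-/

namespace Vale.Agent.Results.P358.BlockInputs

open Matrix
open scoped ComplexOrder

/-- The generalized amplitude-damping channel: on the density matrix `!![1 - q, z; conj z, q]` its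
value is `!![1 - t, √(1-γ) z; √(1-γ) conj z, t]` with `t = (1-γ) q + γ ν`; here it is written for
an arbitrary matrix `ρ`, with `q = ρ 1 1` and with `1` replaced by the trace of `ρ` (the linear
extension). -/
noncomputable def channel (γ ν : ℝ) (ρ : Matrix (Fin 2) (Fin 2) ℂ) : Matrix (Fin 2) (Fin 2) ℂ :=
  !![ρ.trace - ((1 - γ) * ρ 1 1 + γ * ν * ρ.trace), (Real.sqrt (1 - γ) : ℂ) * ρ 0 1;
    (Real.sqrt (1 - γ) : ℂ) * ρ 1 0, (1 - γ) * ρ 1 1 + γ * ν * ρ.trace]

/-- `N` applied to the `i`-th of `n` qubits: the entries of `ρ` in which only the `i`-th bit of the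
row index and the `i`-th bit of the column index vary form a `2 × 2` matrix, to which `N` is
applied. -/
def onQubit (N : Matrix (Fin 2) (Fin 2) ℂ → Matrix (Fin 2) (Fin 2) ℂ) {n : ℕ} (i : Fin n)
    (ρ : Matrix (Fin n → Fin 2) (Fin n → Fin 2) ℂ) : Matrix (Fin n → Fin 2) (Fin n → Fin 2) ℂ :=
  Matrix.of fun x y =>
    N (Matrix.of fun a b => ρ (Function.update x i a) (Function.update y i b)) (x i) (y i)

/-- `n` parallel uses of `N`, the map `N ⊗ ... ⊗ N` on the matrices of the `n`-qubit system: `N` is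
applied to each of the `n` qubits. -/
def uses (N : Matrix (Fin 2) (Fin 2) ℂ → Matrix (Fin 2) (Fin 2) ℂ) (n : ℕ)
    (ρ : Matrix (Fin n → Fin 2) (Fin n → Fin 2) ℂ) : Matrix (Fin n → Fin 2) (Fin n → Fin 2) ℂ :=
  (List.finRange n).foldr (fun i σ => onQubit N i σ) ρ

/-- The von Neumann entropy in bits of a density matrix: `∑ -λ log₂ λ` over its eigenvalues, the
roots of the characteristic polynomial counted with multiplicity. -/
noncomputable def S {m : Type} [Fintype m] [DecidableEq m] (ρ : Matrix m m ℂ) : ℝ :=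
  (ρ.charpoly.roots.map fun z => -(z.re * Real.logb 2 z.re)).sum

/-- The numbers `S(∑ q_a T(ρ_a)) - ∑ q_a S(T(ρ_a))` for all finite ensembles of input states
(positive semidefinite matrices of trace one) `ρ_a` with probabilities `q_a`. -/
def holevoQuantities {m : Type} [Fintype m] [DecidableEq m]
    (T : Matrix m m ℂ → Matrix m m ℂ) : Set ℝ :=
  {v | ∃ (k : ℕ) (q : Fin k → ℝ) (ρ : Fin k → Matrix m m ℂ),
    (∀ a, 0 ≤ q a) ∧ ∑ a, q a = 1 ∧ (∀ a, (ρ a).PosSemidef ∧ (ρ a).trace = 1) ∧
    S (∑ a, (q a : ℂ) • T (ρ a)) - ∑ a, q a * S (T (ρ a)) = v}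

/-! ### Comparison with the definitions of the first proofs -/

private theorem channel_eq (γ ν : ℝ) : channel γ ν = Vale.Agent.P358.gad γ ν := by
  funext ρ
  ext i j
  fin_cases i <;> fin_cases j <;>
    simp [channel, Vale.Agent.P358.gad, Matrix.trace_fin_two]

private theorem S_eq {m : Type} [Fintype m] [DecidableEq m] {ρ : Matrix m m ℂ}
    (h : ρ.IsHermitian) : S ρ = Vale.Agent.P358.entropy ρ := by
  rw [S, Vale.Agent.P358.entropy, dif_pos h, h.roots_charpoly_eq_eigenvalues, Multiset.map_map,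
    ← Finset.sum_neg_distrib]
  rfl

private theorem holevoQuantities_eq {m : Type} [Fintype m] [DecidableEq m]
    {T : Matrix m m ℂ → Matrix m m ℂ} (hT : ∀ ρ : Matrix m m ℂ, ρ.IsHermitian → (T ρ).IsHermitian) :
    holevoQuantities T = Vale.Agent.P358.holevoSet T := by
  have key : ∀ (k : ℕ) (q : Fin k → ℝ) (ρ : Fin k → Matrix m m ℂ),
      (∀ a, (ρ a).PosSemidef ∧ (ρ a).trace = 1) →
      S (∑ a, (q a : ℂ) • T (ρ a)) - ∑ a, q a * S (T (ρ a)) =
      Vale.Agent.P358.entropy (∑ a, (q a : ℂ) • T (ρ a)) -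
        ∑ a, q a * Vale.Agent.P358.entropy (T (ρ a)) := by
    intro k q ρ hρ
    have h1 : ∀ a, (T (ρ a)).IsHermitian := fun a => hT _ (hρ a).1.isHermitian
    have h2 : (∑ a, (q a : ℂ) • T (ρ a)).IsHermitian := by
      rw [Matrix.IsHermitian, Matrix.conjTranspose_sum]
      refine Finset.sum_congr rfl fun a _ => ?_
      rw [Matrix.conjTranspose_smul, (h1 a).eq]
      simp
    rw [S_eq h2]
    congr 1
    exact Finset.sum_congr rfl fun a _ => by rw [S_eq (h1 a)]
  ext v
  constructor
  · rintro ⟨k, q, ρ, h0, h1, hρ, rfl⟩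
    exact ⟨k, q, ρ, h0, h1, hρ, key k q ρ hρ⟩
  · rintro ⟨k, q, ρ, h0, h1, hρ, rfl⟩
    exact ⟨k, q, ρ, h0, h1, hρ, key k q ρ hρ⟩

private noncomputable def onQubitLin (γ ν : ℝ) {n : ℕ} (i : Fin n) :
    Matrix (Fin n → Fin 2) (Fin n → Fin 2) ℂ →ₗ[ℂ] Matrix (Fin n → Fin 2) (Fin n → Fin 2) ℂ where
  toFun := onQubit (EveryTensorPower.gadLin γ ν) i
  map_add' ρ σ := by
    ext x y
    change EveryTensorPower.gadLin γ ν
      ((Matrix.of fun a b => ρ (Function.update x i a) (Function.update y i b)) +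
        Matrix.of fun a b => σ (Function.update x i a) (Function.update y i b)) (x i) (y i) = _
    rw [map_add]
    rfl
  map_smul' c ρ := by
    ext x y
    change EveryTensorPower.gadLin γ ν
      (c • Matrix.of fun a b => ρ (Function.update x i a) (Function.update y i b)) (x i) (y i) = _
    rw [map_smul]
    rfl

private theorem onQubit_kron (γ ν : ℝ) {n : ℕ} (i : Fin n)
    (σ : Fin n → Matrix (Fin 2) (Fin 2) ℂ) :
    onQubit (EveryTensorPower.gadLin γ ν) i (EveryTensorPower.kron σ) =
      EveryTensorPower.kron (Function.update σ i (EveryTensorPower.gadLin γ ν (σ i))) := by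
  ext x y
  have h1 : (Matrix.of fun a b : Fin 2 => EveryTensorPower.kron σ (Function.update x i a)
      (Function.update y i b)) = (∏ j ∈ Finset.univ.erase i, σ j (x j) (y j)) • σ i := by
    ext a b
    simp only [EveryTensorPower.kron, Matrix.of_apply, Matrix.smul_apply, smul_eq_mul]
    rw [← Finset.mul_prod_erase Finset.univ _ (Finset.mem_univ i), Function.update_self,
      Function.update_self, mul_comm]
    congr 1
    refine Finset.prod_congr rfl fun j hj => ?_
    rw [Function.update_of_ne (Finset.ne_of_mem_erase hj),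
      Function.update_of_ne (Finset.ne_of_mem_erase hj)]
  change EveryTensorPower.gadLin γ ν (Matrix.of fun a b : Fin 2 =>
    EveryTensorPower.kron σ (Function.update x i a) (Function.update y i b)) (x i) (y i) = _
  rw [h1, map_smul]
  simp only [EveryTensorPower.kron, Matrix.of_apply, Matrix.smul_apply, smul_eq_mul]
  rw [← Finset.mul_prod_erase Finset.univ _ (Finset.mem_univ i), Function.update_self, mul_comm]
  congr 1
  refine Finset.prod_congr rfl fun j hj => ?_
  rw [Function.update_of_ne (Finset.ne_of_mem_erase hj)]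

private theorem foldr_kron (γ ν : ℝ) {n : ℕ} (ρ : Fin n → Matrix (Fin 2) (Fin 2) ℂ)
    (l : List (Fin n)) (hl : l.Nodup) :
    l.foldr (fun i σ => onQubit (EveryTensorPower.gadLin γ ν) i σ) (EveryTensorPower.kron ρ) =
      EveryTensorPower.kron fun i => if i ∈ l then EveryTensorPower.gadLin γ ν (ρ i) else ρ i := by
  induction l with
  | nil => simp
  | cons i l ih =>
    rw [List.nodup_cons] at hl
    rw [List.foldr_cons, ih hl.2, onQubit_kron]
    congr 1
    funext j
    by_cases hj : j = i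
    · subst hj
      rw [Function.update_self, if_neg hl.1, if_pos (List.mem_cons_self)]
    · rw [Function.update_of_ne hj]
      simp [hj]

private theorem foldr_lin (γ ν : ℝ) {n : ℕ} (l : List (Fin n)) :
    ∃ T : Matrix (Fin n → Fin 2) (Fin n → Fin 2) ℂ →ₗ[ℂ] Matrix (Fin n → Fin 2) (Fin n → Fin 2) ℂ,
      ∀ ρ, T ρ = l.foldr (fun i σ => onQubit (EveryTensorPower.gadLin γ ν) i σ) ρ := by
  induction l with
  | nil => exact ⟨LinearMap.id, fun ρ => rfl⟩
  | cons i l ih =>
    obtain ⟨T, hT⟩ := ih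
    refine ⟨(onQubitLin γ ν i).comp T, fun ρ => ?_⟩
    rw [List.foldr_cons, ← hT]
    rfl

private theorem uses_eq (γ ν : ℝ) (n : ℕ) : uses (channel γ ν) n =
    Vale.Agent.P358.tensorPow (Vale.Agent.P358.gad γ ν) n := by
  funext ρ
  obtain ⟨T, hT⟩ := foldr_lin γ ν (List.finRange n)
  have h1 : EveryTensorPower.IsTensorPower (EveryTensorPower.gadLin γ ν) n T := by
    intro σ
    rw [hT, foldr_kron γ ν σ _ (List.nodup_finRange n)]
    congr 1
    funext i
    rw [if_pos (List.mem_finRange i)]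
  have h2 := EveryTensorPower.eq_of_isTensorPower h1
    (EveryTensorPower.isTensorPower_powLin (EveryTensorPower.isGAD_gadLin γ ν) n)
  have h3 : uses (channel γ ν) n ρ = T ρ := by
    rw [hT, channel_eq]
    rfl
  rw [h3, h2]
  rfl

private theorem gad_herm (γ ν : ℝ) (ρ : Matrix (Fin 2) (Fin 2) ℂ) (hρ : ρ.IsHermitian) :
    (Vale.Agent.P358.gad γ ν ρ).IsHermitian := by
  ext i j
  have h00 := congrFun (congrFun hρ 0) 0
  have h01 := congrFun (congrFun hρ 0) 1
  have h10 := congrFun (congrFun hρ 1) 0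
  have h11 := congrFun (congrFun hρ 1) 1
  simp only [Matrix.conjTranspose_apply] at h00 h01 h10 h11
  fin_cases i <;> fin_cases j <;>
    simp_all [Vale.Agent.P358.gad]

/-- **Entangled block inputs do not increase the classical capacity of the generalized
amplitude-damping channel.** For all `γ, ν ∈ [0,1]` there are numbers `χ n` such that `χ n` is the
Holevo capacity of `n` uses of the channel (the largest Holevo quantity of a finite ensemble of
arbitrary `n`-qubit input states), `χ 1` is the Holevo capacity of the channel, `χ n = n χ 1` for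
every `n`, the capacity `C = sup_{n ≥ 1} χ n / n` is `χ 1`, and `χ 1` is the maximum over
`q ∈ [0,1]` of `h((1-γ)q + γν) - h((1 - √(1 - 4 D))/2)`, `D = γ(1-γ)(q-ν)² + γν(1-ν)`, where
`h = Real.binEntropy / log 2` is the binary entropy in bits. -/
theorem result (γ ν : ℝ) (hγ : γ ∈ Set.Icc (0 : ℝ) 1) (hν : ν ∈ Set.Icc (0 : ℝ) 1) :
    ∃ χ : ℕ → ℝ,
      (∀ n, IsGreatest (holevoQuantities (uses (channel γ ν) n)) (χ n)) ∧
      IsGreatest (holevoQuantities (channel γ ν)) (χ 1) ∧
      (∀ n, χ n = n * χ 1) ∧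
      IsLUB {c : ℝ | ∃ n : ℕ, 1 ≤ n ∧ c = χ n / n} (χ 1) ∧
      IsGreatest ((fun q : ℝ => (Real.binEntropy ((1 - γ) * q + γ * ν) -
        Real.binEntropy ((1 - Real.sqrt (1 - 4 * (γ * (1 - γ) * (q - ν) ^ 2 + γ * ν * (1 - ν)))) /
          2)) / Real.log 2) '' Set.Icc (0 : ℝ) 1) (χ 1) := by
  obtain ⟨hC, hadd, hgn, hg1, -, hform⟩ := Additivity.result γ ν hγ hν
  have h1 : Vale.Agent.P358.holevo
      (Vale.Agent.P358.tensorPow (Vale.Agent.P358.gad γ ν) 1) =
      Vale.Agent.P358.holevo (Vale.Agent.P358.gad γ ν) := by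
    rw [hadd 1, Nat.cast_one, one_mul]
  refine ⟨fun n => Vale.Agent.P358.holevo
    (Vale.Agent.P358.tensorPow (Vale.Agent.P358.gad γ ν) n), fun n => ?_, ?_, fun n => ?_, ?_, ?_⟩
  · rw [uses_eq, holevoQuantities_eq]
    · exact hgn n
    · intro ρ hρ
      rw [Matrix.IsHermitian, Vale.Agent.P358.tensorPow_conjTranspose, hρ.eq]
  · change IsGreatest _ (Vale.Agent.P358.holevo
      (Vale.Agent.P358.tensorPow (Vale.Agent.P358.gad γ ν) 1))
    rw [channel_eq, holevoQuantities_eq (gad_herm γ ν), h1]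
    exact hg1
  · change Vale.Agent.P358.holevo (Vale.Agent.P358.tensorPow (Vale.Agent.P358.gad γ ν) n) =
      n * Vale.Agent.P358.holevo (Vale.Agent.P358.tensorPow (Vale.Agent.P358.gad γ ν) 1)
    rw [hadd n, h1]
  · have hset : {c : ℝ | ∃ n : ℕ, 1 ≤ n ∧ c = Vale.Agent.P358.holevo
        (Vale.Agent.P358.tensorPow (Vale.Agent.P358.gad γ ν) n) / n} =
        {Vale.Agent.P358.holevo (Vale.Agent.P358.tensorPow (Vale.Agent.P358.gad γ ν) 1)} := by
      ext c
      constructor
      · rintro ⟨n, hn, rfl⟩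
        have hn0 : (n : ℝ) ≠ 0 := by
          have : 0 < n := hn
          positivity
        rw [Set.mem_singleton_iff, hadd n, h1]
        field_simp
      · rintro rfl
        exact ⟨1, le_refl 1, by rw [Nat.cast_one, div_one]⟩
    change IsLUB {c : ℝ | ∃ n : ℕ, 1 ≤ n ∧ c = Vale.Agent.P358.holevo
        (Vale.Agent.P358.tensorPow (Vale.Agent.P358.gad γ ν) n) / n}
        (Vale.Agent.P358.holevo (Vale.Agent.P358.tensorPow (Vale.Agent.P358.gad γ ν) 1))
    rw [hset]
    exact isLUB_singleton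
  · change IsGreatest _ (Vale.Agent.P358.holevo
      (Vale.Agent.P358.tensorPow (Vale.Agent.P358.gad γ ν) 1))
    rw [h1, ← hC]
    exact hform

end Vale.Agent.Results.P358.BlockInputs
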