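import Vale.Agent.Results.P358.Additivity

/-!
# P358: entangled inputs do not help the generalized amplitude-damping channel

The channel is any linear map of `2 × 2` matrices that acts as prescribed on the matrices
`!![1 - q, z; star z, q]`, its tensor powers are the linear maps that act factorwise on Kronecker
products, the von Neumann entropy is `-Tr (ρ log₂ ρ)` by functional calculus, and the Holevo
capacity is the supremum over finite ensembles of input states.
-/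

namespace Vale.Agent.Results.P358.EveryTensorPower

open Matrix
open scoped ComplexOrder

/-- `N` is the generalized amplitude-damping channel with damping strength `γ` and stationary
excited-state population `ν`. -/
def IsGAD (γ ν : ℝ) (N : Matrix (Fin 2) (Fin 2) ℂ →ₗ[ℂ] Matrix (Fin 2) (Fin 2) ℂ) : Prop :=
  ∀ (q : ℝ) (z : ℂ), N !![((1 - q : ℝ) : ℂ), z; star z, (q : ℂ)] =
    !![((1 - ((1 - γ) * q + γ * ν) : ℝ) : ℂ), (Real.sqrt (1 - γ) : ℂ) * z;
      (Real.sqrt (1 - γ) : ℂ) * star z, (((1 - γ) * q + γ * ν : ℝ) : ℂ)]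

/-- The Kronecker product of `n` matrices of size `2 × 2`, rows and columns indexed by bit
strings of length `n`. -/
def kron {n : ℕ} (ρ : Fin n → Matrix (Fin 2) (Fin 2) ℂ) :
    Matrix (Fin n → Fin 2) (Fin n → Fin 2) ℂ :=
  Matrix.of fun x y => ∏ i, ρ i (x i) (y i)

/-- The linear map `T` is the `n`-fold tensor power of the linear map `N`. -/
def IsTensorPower (N : Matrix (Fin 2) (Fin 2) ℂ →ₗ[ℂ] Matrix (Fin 2) (Fin 2) ℂ) (n : ℕ)
    (T : Matrix (Fin n → Fin 2) (Fin n → Fin 2) ℂ →ₗ[ℂ]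
      Matrix (Fin n → Fin 2) (Fin n → Fin 2) ℂ) : Prop :=
  ∀ ρ : Fin n → Matrix (Fin 2) (Fin 2) ℂ, T (kron ρ) = kron fun i => N (ρ i)

/-- The states (density matrices) of a finite quantum system. -/
def states (m : Type) [Fintype m] : Set (Matrix m m ℂ) :=
  {ρ | ρ.PosSemidef ∧ ρ.trace = 1}

/-- The von Neumann entropy in bits, `-Tr (ρ log₂ ρ)`, by functional calculus. -/
noncomputable def vnEntropy {m : Type} [Fintype m] [DecidableEq m] (ρ : Matrix m m ℂ) : ℝ :=
  -(Matrix.trace (cfc (fun x : ℝ => x * Real.logb 2 x) ρ)).re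

/-- The values of the Holevo quantity of `T` on the finite ensembles of input states; an ensemble
is a family of states indexed by a finite type `A` with a probability vector on `A`. -/
def holevoValues {m : Type} [Fintype m] [DecidableEq m]
    (T : Matrix m m ℂ →ₗ[ℂ] Matrix m m ℂ) : Set ℝ :=
  {v | ∃ (A : Type) (_ : Fintype A) (q : A → ℝ) (ρ : A → Matrix m m ℂ),
    q ∈ stdSimplex ℝ A ∧ (∀ a, ρ a ∈ states m) ∧
    v = vnEntropy (∑ a, (q a : ℂ) • T (ρ a)) - ∑ a, q a * vnEntropy (T (ρ a))}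

/-- The Holevo capacity `χ(T)`. -/
noncomputable def chi {m : Type} [Fintype m] [DecidableEq m]
    (T : Matrix m m ℂ →ₗ[ℂ] Matrix m m ℂ) : ℝ := sSup (holevoValues T)

/-- `C` is the unassisted classical capacity of `N`: the least upper bound, over all `n ≥ 1`, of
`χ(N^{⊗n}) / n`. -/
def IsClassicalCapacity (N : Matrix (Fin 2) (Fin 2) ℂ →ₗ[ℂ] Matrix (Fin 2) (Fin 2) ℂ)
    (C : ℝ) : Prop :=
  IsLUB {c : ℝ | ∃ n : ℕ, 1 ≤ n ∧ ∃ T, IsTensorPower N n T ∧ c = chi T / n} C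

/-- The binary entropy function in bits. -/
noncomputable def h₂ (p : ℝ) : ℝ := -(p * Real.logb 2 p) - (1 - p) * Real.logb 2 (1 - p)

/-! ### Comparison with the definitions of the first proof -/

theorem h₂_eq (p : ℝ) : h₂ p = Real.binEntropy p / Real.log 2 := by
  rw [h₂, Real.binEntropy, Real.log_inv, Real.log_inv, Real.logb, Real.logb]
  ring

theorem eq_gad {γ ν : ℝ} {N : Matrix (Fin 2) (Fin 2) ℂ →ₗ[ℂ] Matrix (Fin 2) (Fin 2) ℂ}
    (h : IsGAD γ ν N) (ρ : Matrix (Fin 2) (Fin 2) ℂ) :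
    N ρ = Vale.Agent.P358.gad γ ν ρ := by
  have e : ρ = (ρ 0 0 - (ρ 0 1 + ρ 1 0) / 2 - (ρ 0 1 - ρ 1 0) / (2 * Complex.I)) •
        !![((1 - (0 : ℝ) : ℝ) : ℂ), 0; star 0, ((0 : ℝ) : ℂ)]
      + (ρ 1 1) • !![((1 - (1 : ℝ) : ℝ) : ℂ), 0; star 0, ((1 : ℝ) : ℂ)]
      + ((ρ 0 1 + ρ 1 0) / 2) • !![((1 - (0 : ℝ) : ℝ) : ℂ), 1; star 1, ((0 : ℝ) : ℂ)]
      + ((ρ 0 1 - ρ 1 0) / (2 * Complex.I)) •
        !![((1 - (0 : ℝ) : ℝ) : ℂ), Complex.I; star Complex.I, ((0 : ℝ) : ℂ)] := by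
    ext i j
    fin_cases i <;> fin_cases j <;> simp <;> (try field_simp) <;> (try ring)
  rw [e, map_add, map_add, map_add, map_smul, map_smul, map_smul, map_smul, h 0 0, h 1 0, h 0 1,
    h 0 Complex.I, ← e]
  ext i j
  fin_cases i <;> fin_cases j <;> simp [Vale.Agent.P358.gad] <;> (try field_simp) <;>
    (try ring)

/-- The channel as a linear map. -/
noncomputable def gadLin (γ ν : ℝ) :
    Matrix (Fin 2) (Fin 2) ℂ →ₗ[ℂ] Matrix (Fin 2) (Fin 2) ℂ where
  toFun := Vale.Agent.P358.gad γ ν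
  map_add' ρ σ := by
    ext i j
    fin_cases i <;> fin_cases j <;> simp [Vale.Agent.P358.gad] <;> ring
  map_smul' c ρ := by
    ext i j
    fin_cases i <;> fin_cases j <;> simp [Vale.Agent.P358.gad] <;> ring

theorem isGAD_gadLin (γ ν : ℝ) : IsGAD γ ν (gadLin γ ν) := by
  intro q z
  ext i j
  fin_cases i <;> fin_cases j <;> simp [gadLin, Vale.Agent.P358.gad]

/-- The tensor power as a linear map. -/
noncomputable def powLin (γ ν : ℝ) (n : ℕ) :
    Matrix (Fin n → Fin 2) (Fin n → Fin 2) ℂ →ₗ[ℂ] Matrix (Fin n → Fin 2) (Fin n → Fin 2) ℂ where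
  toFun := Vale.Agent.P358.tensorPow (Vale.Agent.P358.gad γ ν) n
  map_add' ρ σ := Vale.Agent.P358.tensorPow_add _ n ρ σ
  map_smul' c ρ := Vale.Agent.P358.tensorPow_smul _ n c ρ

theorem single_eq_kron {n : ℕ} (u v : Fin n → Fin 2) :
    (Matrix.single u v 1 : Matrix (Fin n → Fin 2) (Fin n → Fin 2) ℂ) =
      kron fun i => Matrix.single (u i) (v i) 1 := by
  ext x y
  simp only [kron, Matrix.of_apply, Matrix.single_apply]
  rw [Finset.prod_ite_zero]
  simp only [Finset.mem_univ, forall_true_left, Finset.prod_const_one]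
  congr 1
  rw [eq_iff_iff, forall_and, funext_iff, funext_iff]

theorem tensorPow_kron (γ ν : ℝ) {n : ℕ} (ρ : Fin n → Matrix (Fin 2) (Fin 2) ℂ) :
    Vale.Agent.P358.tensorPow (Vale.Agent.P358.gad γ ν) n (kron ρ) =
      kron fun i => Vale.Agent.P358.gad γ ν (ρ i) := by
  ext x y
  have e : ∀ i, Vale.Agent.P358.gad γ ν (ρ i) (x i) (y i) =
      ∑ p : Fin 2 × Fin 2, Vale.Agent.P358.gad γ ν (Matrix.single p.1 p.2 1) (x i) (y i) *
        ρ i p.1 p.2 := by
    intro i
    have h1 : gadLin γ ν (ρ i) = ∑ a, ∑ b, ρ i a b • gadLin γ ν (Matrix.single a b 1) := by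
      conv_lhs => rw [Matrix.matrix_eq_sum_single (ρ i)]
      rw [map_sum]
      refine Finset.sum_congr rfl fun a _ => ?_
      rw [map_sum]
      refine Finset.sum_congr rfl fun b _ => ?_
      rw [← map_smul, Matrix.smul_single, smul_eq_mul, mul_one]
    have h2 := congrFun (congrFun h1 (x i)) (y i)
    rw [Matrix.sum_apply] at h2
    rw [Fintype.sum_prod_type]
    refine h2.trans (Finset.sum_congr rfl fun a _ => ?_)
    rw [Matrix.sum_apply]
    refine Finset.sum_congr rfl fun b _ => ?_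
    rw [Matrix.smul_apply, smul_eq_mul, mul_comm]
    rfl
  simp only [kron, Matrix.of_apply]
  rw [Finset.prod_congr rfl fun i _ => e i, Finset.prod_univ_sum, Fintype.piFinset_univ]
  simp only [Vale.Agent.P358.tensorPow, Matrix.of_apply]
  refine (Fintype.sum_prod_type'
    (fun u v : Fin n → Fin 2 =>
      (∏ i, Vale.Agent.P358.gad γ ν (Matrix.single (u i) (v i) 1) (x i) (y i)) *
      ∏ i, ρ i (u i) (v i))).symm.trans ?_
  refine (Fintype.sum_equiv (Equiv.arrowProdEquivProdArrow (Fin n) (fun _ => Fin 2)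
    (fun _ => Fin 2)) _ _ fun p => ?_).symm
  rw [← Finset.prod_mul_distrib]
  rfl

theorem isTensorPower_powLin {γ ν : ℝ}
    {N : Matrix (Fin 2) (Fin 2) ℂ →ₗ[ℂ] Matrix (Fin 2) (Fin 2) ℂ} (h : IsGAD γ ν N) (n : ℕ) :
    IsTensorPower N n (powLin γ ν n) := by
  intro ρ
  simp only [eq_gad h]
  exact tensorPow_kron γ ν ρ

theorem eq_of_isTensorPower {N : Matrix (Fin 2) (Fin 2) ℂ →ₗ[ℂ] Matrix (Fin 2) (Fin 2) ℂ}
    {n : ℕ} {T T' : Matrix (Fin n → Fin 2) (Fin n → Fin 2) ℂ →ₗ[ℂ]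
      Matrix (Fin n → Fin 2) (Fin n → Fin 2) ℂ}
    (h : IsTensorPower N n T) (h' : IsTensorPower N n T') : T = T' := by
  refine LinearMap.ext fun ρ => ?_
  rw [Matrix.matrix_eq_sum_single ρ]
  simp only [map_sum]
  refine Finset.sum_congr rfl fun a _ => Finset.sum_congr rfl fun b _ => ?_
  have e : (Matrix.single a b (ρ a b) : Matrix (Fin n → Fin 2) (Fin n → Fin 2) ℂ) =
      ρ a b • Matrix.single a b 1 := by
    rw [Matrix.smul_single, smul_eq_mul, mul_one]
  rw [e, map_smul, map_smul, single_eq_kron, h, h']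

theorem vnEntropy_eq {m : Type} [Fintype m] [DecidableEq m] {ρ : Matrix m m ℂ}
    (h : ρ.IsHermitian) : vnEntropy ρ = Vale.Agent.P358.entropy ρ := by
  rw [vnEntropy, Vale.Agent.P358.entropy, dif_pos h, h.cfc_eq, Matrix.IsHermitian.cfc,
    Unitary.conjStarAlgAut_apply, Matrix.trace_mul_cycle]
  rw [Unitary.coe_star_mul_self, one_mul, Matrix.trace_diagonal]
  simp

theorem holevoValues_eq {m : Type} [Fintype m] [DecidableEq m]
    {T : Matrix m m ℂ →ₗ[ℂ] Matrix m m ℂ} {Φ : Matrix m m ℂ → Matrix m m ℂ}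
    (hT : ∀ ρ, T ρ = Φ ρ) (hΦ : ∀ ρ : Matrix m m ℂ, ρ.IsHermitian → (Φ ρ).IsHermitian) :
    holevoValues T = Vale.Agent.P358.holevoSet Φ := by
  have key : ∀ (A : Type) (_ : Fintype A) (q : A → ℝ) (ρ : A → Matrix m m ℂ),
      (∀ a, ρ a ∈ states m) →
      vnEntropy (∑ a, (q a : ℂ) • T (ρ a)) - ∑ a, q a * vnEntropy (T (ρ a)) =
      Vale.Agent.P358.entropy (∑ a, (q a : ℂ) • Φ (ρ a)) -
        ∑ a, q a * Vale.Agent.P358.entropy (Φ (ρ a)) := by
    intro A _ q ρ hρ
    have h1 : ∀ a, (Φ (ρ a)).IsHermitian := fun a => hΦ _ (hρ a).1.isHermitian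
    have h2 : (∑ a, (q a : ℂ) • Φ (ρ a)).IsHermitian := by
      rw [Matrix.IsHermitian, Matrix.conjTranspose_sum]
      refine Finset.sum_congr rfl fun a _ => ?_
      rw [Matrix.conjTranspose_smul, (h1 a).eq]
      simp
    simp only [hT]
    rw [vnEntropy_eq h2]
    congr 1
    exact Finset.sum_congr rfl fun a _ => by rw [vnEntropy_eq (h1 a)]
  ext v
  constructor
  · rintro ⟨A, _, q, ρ, hq, hρ, rfl⟩
    refine ⟨Fintype.card A, q ∘ (Fintype.equivFin A).symm, ρ ∘ (Fintype.equivFin A).symm,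
      fun a => hq.1 _, ?_, fun a => hρ _, ?_⟩
    · rw [← hq.2]
      exact Equiv.sum_comp (Fintype.equivFin A).symm q
    · rw [key A _ q ρ hρ]
      congr 1
      · congr 1
        exact (Equiv.sum_comp (Fintype.equivFin A).symm fun a => (q a : ℂ) • Φ (ρ a)).symm
      · exact (Equiv.sum_comp (Fintype.equivFin A).symm
          fun a => q a * Vale.Agent.P358.entropy (Φ (ρ a))).symm
  · rintro ⟨k, p, ρ, hp, hp1, hρ, rfl⟩
    exact ⟨Fin k, inferInstance, p, ρ, ⟨hp, hp1⟩, hρ, (key (Fin k) _ p ρ hρ).symm⟩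

theorem chi_eq {γ ν : ℝ} {N : Matrix (Fin 2) (Fin 2) ℂ →ₗ[ℂ] Matrix (Fin 2) (Fin 2) ℂ}
    (h : IsGAD γ ν N) : holevoValues N =
      Vale.Agent.P358.holevoSet (Vale.Agent.P358.gad γ ν) := by
  refine holevoValues_eq (eq_gad h) fun ρ hρ => ?_
  ext i j
  have h00 := congrFun (congrFun hρ 0) 0
  have h01 := congrFun (congrFun hρ 0) 1
  have h10 := congrFun (congrFun hρ 1) 0
  have h11 := congrFun (congrFun hρ 1) 1
  simp only [Matrix.conjTranspose_apply] at h00 h01 h10 h11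
  fin_cases i <;> fin_cases j <;>
    simp_all [Vale.Agent.P358.gad]

theorem chi_pow_eq {γ ν : ℝ} {N : Matrix (Fin 2) (Fin 2) ℂ →ₗ[ℂ] Matrix (Fin 2) (Fin 2) ℂ}
    (h : IsGAD γ ν N) {n : ℕ} {T : Matrix (Fin n → Fin 2) (Fin n → Fin 2) ℂ →ₗ[ℂ]
      Matrix (Fin n → Fin 2) (Fin n → Fin 2) ℂ} (hT : IsTensorPower N n T) :
    holevoValues T = Vale.Agent.P358.holevoSet
      (Vale.Agent.P358.tensorPow (Vale.Agent.P358.gad γ ν) n) := by
  refine holevoValues_eq (fun ρ => ?_) fun ρ hρ => ?_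
  · rw [eq_of_isTensorPower hT (isTensorPower_powLin h n)]
    rfl
  · rw [Matrix.IsHermitian, Vale.Agent.P358.tensorPow_conjTranspose, hρ.eq]

/-- **The classical capacity of the generalized amplitude-damping channel.** For all
`γ, ν ∈ [0,1]` there is exactly one linear map `N` of `2 × 2` matrices acting as the channel
prescribes; for each `n` it has exactly one `n`-fold tensor power `T`; the Holevo quantity of `T`
attains its supremum `χ(T)` over ensembles of (arbitrary, possibly entangled) input states, and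
`χ(T) = n χ(N)`; the classical capacity of `N` is `χ(N)`; and `χ(N)` is the maximum over
`q ∈ [0,1]` of `h₂(t) - h₂((1 - √(1 - 4 D))/2)` with `t = (1-γ)q + γν` and
`D = γ(1-γ)(q-ν)² + γν(1-ν)`. -/
theorem result (γ ν : ℝ) (hγ : 0 ≤ γ ∧ γ ≤ 1) (hν : 0 ≤ ν ∧ ν ≤ 1) :
    (∃! N, IsGAD γ ν N) ∧
    ∀ N, IsGAD γ ν N →
      (∀ n : ℕ, ∃! T, IsTensorPower N n T) ∧
      (∀ (n : ℕ) (T), IsTensorPower N n T →
        IsGreatest (holevoValues T) (chi T) ∧ chi T = n * chi N) ∧
      IsGreatest (holevoValues N) (chi N) ∧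
      IsClassicalCapacity N (chi N) ∧
      IsGreatest {c : ℝ | ∃ q : ℝ, 0 ≤ q ∧ q ≤ 1 ∧
        c = h₂ ((1 - γ) * q + γ * ν) -
          h₂ ((1 - Real.sqrt (1 - 4 * (γ * (1 - γ) * (q - ν) ^ 2 + γ * ν * (1 - ν)))) / 2)}
        (chi N) := by
  obtain ⟨hC, hadd, hgn, hg1, -, hform⟩ :=
    Vale.Agent.Results.P358.Additivity.result γ ν hγ hν
  refine ⟨⟨gadLin γ ν, isGAD_gadLin γ ν, fun N hN => LinearMap.ext fun ρ => eq_gad hN ρ⟩,
    fun N hN => ?_⟩
  have hchi1 : chi N = Vale.Agent.P358.holevo (Vale.Agent.P358.gad γ ν) := by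
    rw [chi, chi_eq hN, Vale.Agent.P358.holevo]
  have hchin : ∀ (n : ℕ) (T), IsTensorPower N n T →
      chi T = Vale.Agent.P358.holevo
        (Vale.Agent.P358.tensorPow (Vale.Agent.P358.gad γ ν) n) := by
    intro n T hT
    rw [chi, chi_pow_eq hN hT, Vale.Agent.P358.holevo]
  have hmul : ∀ (n : ℕ) (T), IsTensorPower N n T → chi T = n * chi N := by
    intro n T hT
    rw [hchin n T hT, hadd n, hchi1]
  refine ⟨fun n => ⟨powLin γ ν n, isTensorPower_powLin hN n,
    fun T hT => eq_of_isTensorPower hT (isTensorPower_powLin hN n)⟩, fun n T hT => ⟨?_, hmul n T hT⟩,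
    ?_, ?_, ?_⟩
  · rw [hchin n T hT, chi_pow_eq hN hT]
    exact hgn n
  · rw [hchi1, chi_eq hN]
    exact hg1
  · have hset : {c : ℝ | ∃ n : ℕ, 1 ≤ n ∧ ∃ T, IsTensorPower N n T ∧ c = chi T / n} =
        {chi N} := by
      ext c
      constructor
      · rintro ⟨n, hn, T, hT, rfl⟩
        have hn0 : (n : ℝ) ≠ 0 := by
          have : 0 < n := hn
          positivity
        rw [Set.mem_singleton_iff, hmul n T hT]
        field_simp
      · rintro rfl
        refine ⟨1, le_refl 1, powLin γ ν 1, isTensorPower_powLin hN 1, ?_⟩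
        rw [hmul 1 _ (isTensorPower_powLin hN 1)]
        simp
    rw [IsClassicalCapacity, hset]
    exact isLUB_singleton
  · rw [hchi1, ← hC]
    convert hform using 1
    ext c
    constructor
    · rintro ⟨q, h0, h1, rfl⟩
      refine ⟨q, ⟨h0, h1⟩, ?_⟩
      rw [h₂_eq, h₂_eq]
      simp only []
      ring
    · rintro ⟨q, ⟨h0, h1⟩, rfl⟩
      refine ⟨q, h0, h1, ?_⟩
      rw [h₂_eq, h₂_eq]
      simp only []
      ring

end Vale.Agent.Results.P358.EveryTensorPower
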